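import Vale.Agent.P260Z.Ob.Core.Rho

/-! K5: the two sides of a wall -/

noncomputable section
set_option linter.unusedSectionVars false
variable [Vale.Agent.P215Z.K.Geom]
namespace Vale.Agent.P215Z.K
open MvPolynomial Classical

namespace Trv

/-- the other side of the wall -/
abbrev bar (d : Lg) : Lg := (d.1, !d.2)

/-- the shift of the marks -/
def sh (d : Lg) (g : F3) : F3 := if d.2 then (FreeGroup.of d.1)⁻¹ * g else FreeGroup.of d.1 * g

theorem sh_surj (d : Lg) (g : F3) : ∃ g', sh d g' = g := by
  obtain ⟨i, s⟩ := d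
  cases s
  · exact ⟨(FreeGroup.of i)⁻¹ * g, by simp [sh]⟩
  · exact ⟨FreeGroup.of i * g, by simp [sh]⟩

theorem br_sh (d : Lg) (g : F3) : sh d g ∈ Br (bar d) ↔ g ∉ Br d := by
  obtain ⟨i, s⟩ := d
  cases s
  · have h := Br_compl i (FreeGroup.of i * g)
    rw [inv_mul_cancel_left] at h
    exact h
  · have h := Br_compl i g
    rw [h, not_not]
    rfl

theorem norm_sh (d : Lg) {g : F3} (h : g ∉ Br d) : (sh d g).norm = g.norm + 1 := by
  obtain ⟨i, s⟩ := d
  cases s
  · exact norm_of_notMem_Br_false i h
  · exact norm_of_notMem_Br_true i h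

variable (L : Letters)

/-- positions without the extra letter -/
def free {i : Kl} (p : L.WV i → ℤ) : Prop := ∀ b, p (none, b) = 0

theorem cown_bar (d : Lg) (c : Option (L.C d.1)) : L.cown (bar d) c = !L.cown d c := by
  obtain ⟨i, s⟩ := d
  cases s <;> cases c <;> simp [Letters.cown]

theorem sgn_bar (d : Lg) (w : L.WV d.1) : L.sgn (bar d) w = -L.sgn d w := by
  rw [Letters.sgn, Letters.sgn, cown_bar]
  cases L.cown d w.1 <;> simp

theorem sgn_sq (d : Lg) (w : L.WV d.1) : L.sgn d w * L.sgn d w = 1 := by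
  rw [Letters.sgn]
  split_ifs <;> simp

theorem cmark_bar (d : Lg) (c : Option (L.C d.1)) (g : F3) :
    L.cmark (bar d) c = Sum.inl (sh d g) ↔ L.cmark d c = Sum.inl g := by
  obtain ⟨i, s⟩ := d
  cases c with
  | none => simp [Letters.cmark]
  | some c =>
    cases s
    · simp [Letters.cmark, sh, inv_mul_eq_iff_eq_mul]
    · simp [Letters.cmark, sh]

theorem chg_bar (d : Lg) (g : F3) (p : L.Pos d) :
    L.chg (bar d) (Sum.inl (sh d g)) p = -L.chg d (Sum.inl g) p := by
  rw [Letters.chg, Letters.chg, ← Finset.sum_neg_distrib]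
  refine Finset.sum_congr rfl fun w _ => ?_
  by_cases h : L.cmark d w.1 = Sum.inl g
  · rw [if_pos h, if_pos ((cmark_bar L d w.1 g).mpr h), sgn_bar, neg_mul]
  · rw [if_neg h, if_neg fun h' => h ((cmark_bar L d w.1 g).mp h'), neg_zero]

theorem wS_bar (d : Lg) (p : L.Pos d) : L.wS (bar d) p = L.wR d p := by
  rw [Letters.wS, Letters.wR]
  refine Finset.sum_congr rfl fun w _ => ?_
  rw [cown_bar]
  cases L.cown d w.1 <;> simp

theorem wR_bar (d : Lg) (p : L.Pos d) : L.wR (bar d) p = L.wS d p := by
  rw [Letters.wS, Letters.wR]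
  refine Finset.sum_congr rfl fun w _ => ?_
  rw [cown_bar]
  cases L.cown d w.1 <;> simp

theorem wR_nonneg (l : Lg) {p : L.Pos l} (hp : ∀ w, 0 ≤ p w) : 0 ≤ L.wR l p := by
  refine Finset.sum_nonneg fun w _ => ?_
  split_ifs
  · exact le_rfl
  · exact mul_nonneg (Int.natCast_nonneg _) (hp w)

theorem chg_inr (l l' : Lg) {p : L.Pos l} (hp : free L p) : L.chg l (Sum.inr l') p = 0 := by
  refine Finset.sum_eq_zero fun w _ => ?_
  obtain ⟨c, b⟩ := w
  cases c with
  | none => rw [hp b, mul_zero, ite_self]
  | some c => rw [if_neg (by simp [Letters.cmark])]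

theorem bar_bar (d : Lg) : bar (bar d) = d := by
  obtain ⟨i, s⟩ := d
  cases s <;> rfl

theorem lam_bar (d : Lg) {p : L.Pos d} (hp : free L p) (h : p ∈ L.Lam d) : p ∈ L.Lam (bar d) := by
  obtain ⟨h1, h2, h3, h4⟩ := h
  refine ⟨h1, fun m => ?_, by rwa [wS_bar, wR_bar], by rwa [wS_bar, wR_bar]⟩
  rcases m with g | l'
  · obtain ⟨g, rfl⟩ := sh_surj d g
    have h5 := h2 (Sum.inl g)
    rw [chg_bar]
    simp only [loB, upB, br_sh] at h5 ⊢
    by_cases h6 : g ∈ Br d
    · simp only [h6, if_true, not_true, if_false] at h5 ⊢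
      omega
    · simp only [h6, if_false, not_false_iff, if_true] at h5 ⊢
      omega
  · rw [chg_inr L (bar d) _ hp]
    simp only [loB, upB]
    split_ifs <;> simp

theorem lam_bar' (d : Lg) {p : L.Pos d} (hp : free L p) (h : p ∈ L.Lam (bar d)) : p ∈ L.Lam d := by
  obtain ⟨i, s⟩ := d
  cases s
  · exact lam_bar L (i, true) hp h
  · exact lam_bar L (i, false) hp h

theorem free_weak (i : Kl) {p : L.Pos (i, false)} (h : p ∈ L.Lam (i, false)) : free L p := by
  intro b
  have h1 : 0 ≤ L.chg (i, false) (Sum.inr (i, false)) p := (h.2.1 (Sum.inr (i, false))).1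
  have h2 : ∀ w ∈ Finset.univ, (if L.cmark (i, false) w.1 = Sum.inr (i, false) then
      L.sgn (i, false) w * p w else 0) ≤ 0 := by
    rintro ⟨c, b⟩ _
    cases c with
    | none =>
      have h3 := h.1 (none, b)
      simpa [Letters.cmark, Letters.sgn, Letters.cown] using h3
    | some c => simp [Letters.cmark]
  have h3 := (Finset.sum_eq_zero_iff_of_nonpos h2).mp (le_antisymm (Finset.sum_nonpos h2) h1)
    (none, b) (Finset.mem_univ _)
  simpa [Letters.cmark, Letters.sgn, Letters.cown] using h3

/-- one extra letter -/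
def eb {i : Kl} (b : I2) : L.WV i → ℤ := Pi.single (none, b) 1

theorem eb_some {i : Kl} (b b' : I2) (c : L.C i) : eb L b (some c, b') = 0 := by
  simp [eb]

theorem eb_none {i : Kl} (b b' : I2) :
    eb L (i := i) b (none, b') = if b' = b then 1 else 0 := by
  simp [eb, Pi.single_apply]

theorem chg_eb (i : Kl) (m : Mk) (p : L.Pos (i, true)) (b : I2) :
    L.chg (i, true) m (p + eb L b) =
      L.chg (i, true) m p + if m = Sum.inr (i, true) then 1 else 0 := by
  have h1 : (if m = Sum.inr (i, true) then 1 else 0 : ℤ) = ∑ w : L.WV i,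
      if L.cmark (i, true) w.1 = m then L.sgn (i, true) w * eb L b w else 0 := by
    rw [Finset.sum_eq_single (none, b)]
    · simp [Letters.cmark, Letters.sgn, Letters.cown, eb, eq_comm]
    · intro w _ hw
      simp [eb, hw]
    · simp
  rw [h1, Letters.chg, Letters.chg, ← Finset.sum_add_distrib]
  refine Finset.sum_congr rfl fun w _ => ?_
  split_ifs
  · rw [Pi.add_apply, mul_add]
  · rfl

theorem wt_eb (i : Kl) (p : L.WV i → ℤ) (b : I2) (w : L.WV i) :
    (L.wt i w.1 : ℤ) * (p + eb L b : L.WV i → ℤ) w = L.wt i w.1 * p w := by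
  obtain ⟨c, b'⟩ := w
  cases c with
  | none => simp [Letters.wt]
  | some c => rw [Pi.add_apply, eb_some, add_zero]

theorem lam_eb (i : Kl) {p : L.Pos (i, true)} (hp : free L p) (b : I2) :
    p + eb L b ∈ L.Lam (i, true) ↔ p ∈ L.Lam (i, true) := by
  have hS : L.wS (i, true) (p + eb L b) = L.wS (i, true) p :=
    Finset.sum_congr rfl fun w _ => by rw [wt_eb]
  have hR : L.wR (i, true) (p + eb L b) = L.wR (i, true) p :=
    Finset.sum_congr rfl fun w _ => by rw [wt_eb]
  refine and_congr (forall_congr' fun w => ?_) (and_congr (forall_congr' fun m => ?_)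
    (by rw [hS, hR]))
  · obtain ⟨c, b'⟩ := w
    cases c with
    | none =>
      rw [Pi.add_apply, hp, eb_none]
      split_ifs <;> simp
    | some c => rw [Pi.add_apply, eb_some, add_zero]
  · rw [chg_eb]
    rcases m with g | l'
    · simp
    · rw [chg_inr L _ _ hp]
      simp only [loB, upB, Sum.inr.injEq]
      split_ifs <;> simp_all

/-- indicator of a position -/
def ind (l : Lg) (p : L.Pos l) : L.Tst l := fun q => if q.1 = p then 1 else 0

theorem ind_zero (l : Lg) {p : L.Pos l} (h : p ∉ L.Lam l) : ind L l p = 0 := by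
  funext q
  exact if_neg fun h1 : q.1 = p => h (h1 ▸ q.2)

theorem val_in (l : Lg) {p : L.Pos l} (h : p ∈ L.Lam l) (χ : L.Tst l) :
    L.val l p χ = χ ⟨p, h⟩ := by
  rw [Letters.val, dif_pos h]
  rfl

theorem val_out (l : Lg) {p : L.Pos l} (h : p ∉ L.Lam l) (χ : L.Tst l) : L.val l p χ = 0 := by
  rw [Letters.val, dif_neg h]
  rfl

theorem rho_ind (l : Lg) {p : L.Pos l} (h : p ∈ L.Lam l) (m : L.WV l.1 →₀ ℕ) (c : ℚ) :
    L.rho l (monomial m c) (ind L l p) = c • ind L l fun w => p w - L.sgn l w * m w := by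
  funext q
  rw [L.rho_monomial, Pi.smul_apply, smul_eq_mul]
  congr 1
  have h1 : ((fun w => q.1 w + L.sgn l w * m w) = p) ↔ q.1 = fun w => p w - L.sgn l w * m w := by
    simp only [funext_iff, eq_sub_iff_add_eq]
  by_cases h2 : (fun w => q.1 w + L.sgn l w * m w) ∈ L.Lam l
  · rw [val_in L l h2]
    exact if_congr h1 rfl rfl
  · rw [val_out L l h2]
    exact (if_neg fun h3 => h2 (h1.mpr h3 ▸ h)).symm

/-- the test attached to a functional on the other side -/
def tr (d : Lg) (Φ : L.Tst (bar d) →ₗ[ℚ] ℚ) (e : L.Pos d) : L.Tst d :=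
  fun p => if free L p.1 then Φ (ind L (bar d) (p.1 + e)) else 0

theorem val_tr (d : Lg) (Φ : L.Tst (bar d) →ₗ[ℚ] ℚ) (e p : L.Pos d)
    (h : free L p → p + e ∈ L.Lam (bar d) → p ∈ L.Lam d) :
    L.val d p (tr L d Φ e) = if free L p then Φ (ind L (bar d) (p + e)) else 0 := by
  by_cases h1 : p ∈ L.Lam d
  · rw [val_in L d h1]
    rfl
  · rw [val_out L d h1]
    split_ifs with h2
    · rw [ind_zero L _ fun h3 => h1 (h h2 h3), map_zero]
    · rfl

theorem tr_add (d : Lg) (Φ Φ' : L.Tst (bar d) →ₗ[ℚ] ℚ) (e : L.Pos d) :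
    tr L d (Φ + Φ') e = tr L d Φ e + tr L d Φ' e := by
  funext p
  simp only [tr, Pi.add_apply, LinearMap.add_apply]
  split_ifs <;> simp

theorem val_tr0 (d : Lg) (Φ : L.Tst (bar d) →ₗ[ℚ] ℚ) (p : L.Pos d) :
    L.val d p (tr L d Φ 0) = if free L p then Φ (ind L (bar d) p) else 0 := by
  rw [val_tr L d Φ 0 p fun h1 h2 => lam_bar' L d h1 (by rwa [add_zero] at h2), add_zero]

theorem rho_tr (d : Lg) (Φ : L.Tst (bar d) →ₗ[ℚ] ℚ) (f : MvPolynomial (L.WV d.1) ℚ) :
    L.rho d f (tr L d Φ 0) = tr L d (Φ ∘ₗ L.rho (bar d) f) 0 := by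
  induction f using MvPolynomial.induction_on' with
  | add f g hf hg =>
    have h1 : L.rho (bar d) (f + g) = L.rho (bar d) f + L.rho (bar d) g := map_add _ _ _
    rw [map_add, LinearMap.add_apply, hf, hg, h1, LinearMap.comp_add, tr_add]
  | monomial m c =>
    funext p
    rw [L.rho_monomial, val_tr0, tr, add_zero]
    by_cases h1 : (fun w => p.1 w + L.sgn d w * m w) ∈ L.Lam (bar d)
    · have h2 : free L (fun w => p.1 w + L.sgn d w * m w) ∧ free L p.1 := by
        obtain ⟨i, s⟩ := d
        cases s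
        · have h3 := free_weak L i p.2
          refine ⟨fun b => ?_, h3⟩
          have h4 := h1.1 (none, b)
          simp only [h3 b, Letters.sgn, Letters.cown] at h4 ⊢
          simp at h4 ⊢
          omega
        · have h3 := free_weak L i h1
          refine ⟨h3, fun b => ?_⟩
          have h4 := h3 b
          have h5 := p.2.1 (none, b)
          simp only [Letters.sgn, Letters.cown] at h4
          simp at h4
          omega
      rw [if_pos h2.1, if_pos h2.2, LinearMap.comp_apply,
        rho_ind L (bar d) (lam_bar L d h2.2 p.2), map_smul, smul_eq_mul]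
      simp only [sgn_bar, neg_mul, sub_neg_eq_add]
    · rw [ind_zero L _ h1, map_zero, ite_self, mul_zero]
      split_ifs with h2
      · rw [LinearMap.comp_apply, rho_ind L (bar d) (lam_bar L d h2 p.2)]
        simp only [sgn_bar, neg_mul, sub_neg_eq_add]
        rw [ind_zero L _ h1, smul_zero, map_zero]
      · rfl

theorem rho_tr_eb (i : Kl) (Φ : L.Tst (i, true) →ₗ[ℚ] ℚ) (b : I2)
    (f : MvPolynomial (L.WV i) ℚ) :
    tr L (i, false) (Φ ∘ₗ L.rho (i, true) f) (eb L b) =
      L.rho (i, false) f (tr L (i, false) Φ (eb L b)) +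
        L.rho (i, false) (pderiv (none, b) f) (tr L (i, false) Φ 0) := by
  induction f using MvPolynomial.induction_on' with
  | add f g hf hg =>
    have h1 : L.rho (i, true) (f + g) = L.rho (i, true) f + L.rho (i, true) g := map_add _ _ _
    have h2 : L.rho (i, false) (f + g) = L.rho (i, false) f + L.rho (i, false) g := map_add _ _ _
    have h3 : L.rho (i, false) (pderiv (none, b) (f + g)) = L.rho (i, false) (pderiv (none, b) f) +
        L.rho (i, false) (pderiv (none, b) g) := by
      rw [map_add]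
      exact map_add _ _ _
    rw [h1, LinearMap.comp_add, tr_add, hf, hg, h2, h3, LinearMap.add_apply, LinearMap.add_apply]
    abel
  | monomial m c =>
    funext p
    have hp := free_weak L i p.2
    have hs : ∀ b', L.sgn (i, false) (none, b') = -1 := fun b' => rfl
    have h0 : p.1 + eb L b ∈ L.Lam (i, true) :=
      (lam_eb L i hp b).mpr (lam_bar L (i, false) hp p.2)
    obtain ⟨q, hq⟩ : ∃ q : L.WV i → ℤ, q = (fun w => p.1 w + L.sgn (i, false) w * m w) + eb L b :=
      ⟨_, rfl⟩
    have h1 : tr L (i, false) (Φ ∘ₗ L.rho (i, true) (monomial m c)) (eb L b) p =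
        c * Φ (ind L (i, true) q) := by
      rw [tr, if_pos hp, LinearMap.comp_apply]
      have h2 := rho_ind L (i, true) h0 m c
      have h3 : (fun w => (p.1 + eb L b : L.WV i → ℤ) w - L.sgn (i, true) w * m w) = q := by
        funext w
        have h4 : L.sgn (i, true) w = -L.sgn (i, false) w := sgn_bar L (i, false) w
        rw [hq, h4, Pi.add_apply, Pi.add_apply]
        ring
      rw [h3] at h2
      exact (congrArg Φ h2).trans (by rw [map_smul, smul_eq_mul])
    have h2 : L.rho (i, false) (monomial m c) (tr L (i, false) Φ (eb L b)) p =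
        c * if free L (fun w => p.1 w + L.sgn (i, false) w * m w) then
          Φ (ind L (i, true) q) else 0 := by
      rw [L.rho_monomial, val_tr L (i, false) Φ (eb L b) _ fun h3 h4 =>
        lam_bar L (i, true) h3 ((lam_eb L i h3 b).mp h4), hq]
      rfl
    have h3 : L.rho (i, false) (pderiv (none, b) (monomial m c)) (tr L (i, false) Φ 0) p =
        c * m (none, b) * if free L q then Φ (ind L (i, true) q) else 0 := by
      rw [pderiv_monomial, L.rho_monomial, val_tr0]
      by_cases h4 : m (none, b) = 0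
      · rw [h4, Nat.cast_zero, mul_zero, zero_mul, zero_mul]
      · have h5 : (fun w => p.1 w + L.sgn (i, false) w *
            ((m - Finsupp.single (none, b) 1 : L.WV i →₀ ℕ) w : ℤ)) = q := by
          funext w
          rw [hq, Pi.add_apply, Finsupp.tsub_apply]
          by_cases h6 : w = (none, b)
          · subst h6
            rw [hs, eb_none, if_pos rfl, Finsupp.single_eq_same]
            omega
          · rw [Finsupp.single_eq_of_ne h6, eb, Pi.single_eq_of_ne h6, Nat.sub_zero, add_zero]
        rw [h5]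
        rfl
    rw [Pi.add_apply, h1, h2, h3]
    by_cases h4 : q ∈ L.Lam (i, true)
    · have h5 : ∀ b', q (none, b') = (if b' = b then 1 else 0) - (m (none, b') : ℤ) := by
        intro b'
        rw [hq, Pi.add_apply, hp, hs, eb_none]
        ring
      have h6 : ∀ b', b' ≠ b → m (none, b') = 0 := by
        intro b' hb
        have h7 := h4.1 (none, b')
        rw [h5, if_neg hb] at h7
        omega
      have h7 := h4.1 (none, b)
      rw [h5, if_pos rfl] at h7
      by_cases h8 : m (none, b) = 0
      · rw [h8, if_pos, Nat.cast_zero, mul_zero, zero_mul, add_zero]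
        intro b'
        have h9 : m (none, b') = 0 := by
          by_cases hb : b' = b
          · rw [hb, h8]
          · exact h6 b' hb
        change p.1 (none, b') + _ * (m (none, b') : ℤ) = 0
        rw [hp, h9, Nat.cast_zero, mul_zero, add_zero]
      · have h9 : m (none, b) = 1 := by omega
        rw [if_neg, if_pos, h9, Nat.cast_one, mul_one, mul_zero, zero_add]
        · intro b'
          rw [h5]
          by_cases hb : b' = b
          · rw [if_pos hb, hb, h9, Nat.cast_one, sub_self]
          · rw [if_neg hb, h6 b' hb, Nat.cast_zero, sub_self]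
        · intro h10
          have h11 : p.1 (none, b) + L.sgn (i, false) (none, b) * (m (none, b) : ℤ) = 0 := h10 b
          rw [hp, hs, h9] at h11
          omega
    · rw [ind_zero L _ h4, map_zero, ite_self, ite_self, mul_zero, mul_zero, add_zero]

end Trv
end Vale.Agent.P215Z.K
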